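import Mathlib
import Vale.Agent.P065.UB.H616.Chart
import Vale.Agent.P065.H183.JView

/-!
# P065, upper bound, line U: the literal chain `JView ⇒ Fr0 ⇒ Fr ⇒ FrD` (helper352)

Coordinates: `p = (x, y) = chart m0 c q = (U / V, 1 / V)` (`H616/Chart.lean`), points on one side of
the line `l0`. A class is a real number `u` (abscissa of an apex on `l0`), its functional is
`cf u = x - u y`, the window of the point `q` seen from the apex `u` is `win u q`, and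
`lo w ≤ x - u y ≤ hi w` for `w = win u q` EXACTLY (415's cherry). `[lo w, hi w]` is a bounded closed
interval contained in `Zw m0 (I w)` (hull of the finitely many relevant values).
`m = #Q / lam ^ 2`; counting is done with POINTS (no cells).
-/

set_option autoImplicit false

namespace Vale.Agent.P065.UB.GridU

open Finset
open Vale.Agent.P065.UB.H616 (chU chV chart Zw)

/-- class functional -/
def cf (u : ℝ) (p : ℝ × ℝ) : ℝ := p.1 - u * p.2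

/-- the abscissa at which the line through two chart points meets `y = 0` -/
noncomputable def icp (p q : ℝ × ℝ) : ℝ := (p.1 * q.2 - q.1 * p.2) / (q.2 - p.2)

/-- `cf u = al u * (cf u1 + mu u * (cf u2 / rho))` -/
noncomputable def al (u1 u2 u : ℝ) : ℝ := (u - u2) / (u1 - u2)

/-- the multiplier of the class `u` in the coordinates `X = cf u1`, `Y = cf u2 / rho` -/
noncomputable def mu (u1 u2 rho u : ℝ) : ℝ := rho * (u1 - u) / (u - u2)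

theorem cf_eq {u1 u2 rho u : ℝ} (h12 : u1 ≠ u2) (hr : rho ≠ 0) (hu : u ≠ u2) (p : ℝ × ℝ) :
    cf u p = al u1 u2 u * (cf u1 p + mu u1 u2 rho u * (cf u2 p / rho)) := by
  have h1 : u1 - u2 ≠ 0 := sub_ne_zero.2 h12
  have h2 : u - u2 ≠ 0 := sub_ne_zero.2 hu
  unfold cf al mu
  field_simp
  ring

open Classical in
/-- points, windows, rich points in the chart -/
structure Base (K lam m : ℝ) (Q : Finset (ℝ × ℝ)) (W : Finset ℕ) (lo hi : ℕ → ℝ)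
    (R : ℕ → Finset (ℝ × ℝ)) : Prop where
  two : 2 ≤ K
  one : 1 ≤ lam
  hm : 0 < m
  cardQ : (#Q : ℝ) ≤ K * lam ^ 2 * m
  sgn : (∀ q ∈ Q, 0 < q.2) ∨ (∀ q ∈ Q, q.2 < 0)
  lohi : ∀ w ∈ W, lo w ≤ hi w
  disj : ∀ w ∈ W, ∀ w' ∈ W, w ≠ w' → hi w < lo w' ∨ hi w' < lo w
  cardW : (#W : ℝ) ≤ K * lam ^ 2
  subR : ∀ w ∈ W, R w ⊆ Q
  cardR : ∀ w ∈ W, (#(R w) : ℝ) ≤ K * lam * m
  join : ∀ w ∈ W, ∀ M : Finset (ℝ × ℝ), M ⊆ R w →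
    lam ^ 4 * (#M : ℝ) ^ 6 ≤ K * (lam ^ 2 * m) ^ 4 *
      ((#{e ∈ M ×ˢ M | e.1.2 ≠ e.2.2 ∧ lo w ≤ icp e.1 e.2 ∧ icp e.1 e.2 ≤ hi w} : ℝ) + 1)
  star : ∀ a b g t a' b' g' r : ℝ,
    ∑ w ∈ W, (#{q ∈ R w | |a * q.1 + b * q.2 + g| ≤ t ∧ |a' * q.1 + b' * q.2 + g'| ≤ r} : ℝ) ^ 3
      ≤ K * (lam * m *
        (#{q ∈ Q | |a * q.1 + b * q.2 + g| ≤ t ∧ |a' * q.1 + b' * q.2 + g'| ≤ r} : ℝ) ^ 2
        + (lam ^ 2 * m) ^ 2)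

open Classical in
/-- **Fr0**: all apexes of `W0` (at most `K lam m` of them) after CHERRY, FLAG and (P2).
`Kd` = loss of the density, `D` = quality of (P2), `K` = all other losses. -/
structure Fr0 (Kd D K lam m : ℝ) (Q : Finset (ℝ × ℝ)) (W : Finset ℕ) (lo hi : ℕ → ℝ)
    (R : ℕ → Finset (ℝ × ℝ)) (A : Finset ℝ) (E : Finset (ℝ × (ℝ × ℝ)))
    (win : ℝ → ℝ × ℝ → ℕ) : Prop extends Base K lam m Q W lo hi R where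
  hKd : 2 ≤ Kd
  cardA : (#A : ℝ) ≤ Kd * lam * m
  cardQd : (#Q : ℝ) ≤ Kd * lam ^ 2 * m
  memA : ∀ e ∈ E, e.1 ∈ A
  memQ : ∀ e ∈ E, e.2 ∈ Q
  memW : ∀ e ∈ E, win e.1 e.2 ∈ W
  memR : ∀ e ∈ E, e.2 ∈ R (win e.1 e.2)
  see : ∀ e ∈ E, lo (win e.1 e.2) ≤ cf e.1 e.2 ∧ cf e.1 e.2 ≤ hi (win e.1 e.2)
  /-- density `1 / Kd` -/
  dens : lam ^ 3 * m ^ 2 ≤ Kd * #E
  /-- an apex uses at most `K lam` windows -/
  touch : ∀ u ∈ A, (#{w ∈ W | ∃ q, (u, q) ∈ E ∧ win u q = w} : ℝ) ≤ K * lam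
  /-- FLAG -/
  flag : ∀ q ∈ Q, ∀ w ∈ W, (#{u ∈ A | (u, q) ∈ E ∧ win u q = w} : ℝ) ≤ K * m
  /-- (P2): all but `1 / D` of the cherries `(u, u'; q)` are good -/
  p2 : D * (#{t ∈ (A ×ˢ A) ×ˢ Q | (t.1.1, t.2) ∈ E ∧ (t.1.2, t.2) ∈ E ∧
      win t.1.1 t.2 ≠ win t.1.2 t.2 ∧
      K * m < #{q ∈ Q | (t.1.1, q) ∈ E ∧ (t.1.2, q) ∈ E ∧ win t.1.1 q = win t.1.1 t.2 ∧
        win t.1.2 q = win t.1.2 t.2}} : ℝ) ≤ (lam * m) ^ 2 * (lam ^ 2 * m)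

open Classical in
/-- **Fr**: two classes `u1`, `u2` seen by every used point, and the unit `rho`. -/
structure Fr (K lam m : ℝ) (Q : Finset (ℝ × ℝ)) (W : Finset ℕ) (lo hi : ℕ → ℝ)
    (R : ℕ → Finset (ℝ × ℝ)) (u1 u2 rho : ℝ) (A : Finset ℝ) (E : Finset (ℝ × (ℝ × ℝ)))
    (win : ℝ → ℝ × ℝ → ℕ) : Prop extends Base K lam m Q W lo hi R where
  u12 : u1 ≠ u2
  hrho : 0 < rho
  cardA : (#A : ℝ) ≤ K * lam * m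
  memA : ∀ e ∈ E, e.1 ∈ A
  memQ : ∀ e ∈ E, e.2 ∈ Q
  /-- the three classes `u1`, `u2`, `u` at a used pair `(u, q)` -/
  memW : ∀ e ∈ E, ∀ v, v = u1 ∨ v = u2 ∨ v = e.1 → win v e.2 ∈ W ∧ e.2 ∈ R (win v e.2) ∧
    lo (win v e.2) ≤ cf v e.2 ∧ cf v e.2 ≤ hi (win v e.2)
  dens : lam ^ 3 * m ^ 2 ≤ K * #E
  /-- every used point sees many apexes -/
  deg : ∀ e ∈ E, lam * m ≤ K * #{u ∈ A | (u, e.2) ∈ E}
  touch1 : (#(E.image fun e => win u1 e.2) : ℝ) ≤ K * lam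
  touch2 : (#(E.image fun e => win u2 e.2) : ℝ) ≤ K * lam
  touch : ∀ u ∈ A, (#{w ∈ W | ∃ q, (u, q) ∈ E ∧ win u q = w} : ℝ) ≤ K * lam
  flag : ∀ q ∈ Q, ∀ w ∈ W, (#{u ∈ A | (u, q) ∈ E ∧ win u q = w} : ℝ) ≤ K * m
  p12 : ∀ e ∈ E, (#{q ∈ E.image Prod.snd | win u1 q = win u1 e.2 ∧ win u2 q = win u2 e.2} : ℝ)
    ≤ K * m
  p1a : ∀ e ∈ E, (#{q ∈ Q | (e.1, q) ∈ E ∧ win e.1 q = win e.1 e.2 ∧ win u1 q = win u1 e.2} : ℝ)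
    ≤ K * m
  p2a : ∀ e ∈ E, (#{q ∈ Q | (e.1, q) ∈ E ∧ win e.1 q = win e.1 e.2 ∧ win u2 q = win u2 e.2} : ℝ)
    ≤ K * m
  neA : ∀ u ∈ A, u ≠ u1 ∧ u ≠ u2
  /-- multipliers of size about one -/
  mult : ∀ u ∈ A, 1 ≤ 4 * |mu u1 u2 rho u| ∧ |mu u1 u2 rho u| ≤ 4

open Classical in
/-- **FrD**: one resolution `del` in the coordinates `X = cf u1`, `Y = cf u2 / rho`. -/
structure FrD (K lam m : ℝ) (Q : Finset (ℝ × ℝ)) (W : Finset ℕ) (lo hi : ℕ → ℝ)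
    (R : ℕ → Finset (ℝ × ℝ)) (u1 u2 rho : ℝ) (A : Finset ℝ) (E : Finset (ℝ × (ℝ × ℝ)))
    (win : ℝ → ℝ × ℝ → ℕ) (del : ℝ) : Prop
    extends Fr K lam m Q W lo hi R u1 u2 rho A E win where
  hdel : 0 < del
  /-- the windows used are narrow (normalised width `≤ del`) -/
  w1 : ∀ e ∈ E, hi (win u1 e.2) - lo (win u1 e.2) ≤ del
  w2 : ∀ e ∈ E, hi (win u2 e.2) - lo (win u2 e.2) ≤ rho * del
  wa : ∀ e ∈ E, hi (win e.1 e.2) - lo (win e.1 e.2) ≤ |al u1 u2 e.1| * del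
  /-- a `del`-square has few points -/
  sq : ∀ x y : ℝ, (#{q ∈ E.image Prod.snd | |cf u1 q - x| ≤ del ∧ |cf u2 q / rho - y| ≤ del} : ℝ)
    ≤ K * m

open Classical in
/-- the link with the plane: chart with centre `c`, line `l0` of slope `m0` through `c`, side `σ` -/
structure Link (Q : Finset Pt) (W : Finset ℕ) (I : ℕ → Set ℝ) (R : ℕ → Finset Pt)
    (c : Pt) (w0 : ℕ) (m0 σ : ℝ)
    (Q' : Finset (ℝ × ℝ)) (W' : Finset ℕ) (lo hi : ℕ → ℝ) (R' : ℕ → Finset (ℝ × ℝ))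
    (A : Finset ℝ) : Prop where
  w0W : w0 ∈ W
  cR : c ∈ R w0
  m0I : m0 ∈ I w0
  hσ : σ = 1 ∨ σ = -1
  Qeq : Q' = ({q ∈ Q | 0 < σ * chV m0 c q}).image (chart m0 c)
  subW : W' ⊆ W
  w0n : w0 ∉ W'
  Zsub : ∀ w ∈ W', Set.Icc (lo w) (hi w) ⊆ Zw m0 (I w)
  Req : ∀ w ∈ W', R' w = ({q ∈ R w | 0 < σ * chV m0 c q}).image (chart m0 c)
  Amem : ∀ u ∈ A, ∃ a ∈ R w0, u = chU c a

/-! ### the blocks -/

/-- **[FR0]** `Cher` (415) + FLAG (`StGroup`) + (P2) (`StMult`, 410) + chart (616, 415) -/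
def StFr0 : Prop :=
  ∀ c : ℕ, ∃ C : ℕ, ∀ (K lam : ℝ) (Q : Finset Pt) (W : Finset ℕ) (I : ℕ → Set ℝ)
    (R : ℕ → Finset Pt), H183.JView K lam Q W I R → K ^ C ≤ lam → lam ^ 8 ≤ #Q →
    ∃ (Kd D : ℝ) (o : Pt) (w0 : ℕ) (m0 σ : ℝ) (Q' : Finset (ℝ × ℝ)) (W' : Finset ℕ)
      (lo hi : ℕ → ℝ) (R' : ℕ → Finset (ℝ × ℝ)) (A : Finset ℝ) (E : Finset (ℝ × (ℝ × ℝ)))
      (win : ℝ → ℝ × ℝ → ℕ), Kd ≤ K ^ C ∧ Kd ^ c ≤ D ∧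
      Fr0 Kd D (K ^ C) lam (#Q / lam ^ 2) Q' W' lo hi R' A E win ∧
      Link Q W I R o w0 m0 σ Q' W' lo hi R' A

/-- **[SEL]** choice of `u1`, `u2`, `rho` (no fixed class; apexes `u1, u2, u3` in `A`) -/
def StFr : Prop :=
  ∃ c C : ℕ, ∀ (Kd D K lam m : ℝ) (Q : Finset (ℝ × ℝ)) (W : Finset ℕ) (lo hi : ℕ → ℝ)
    (R : ℕ → Finset (ℝ × ℝ)) (A : Finset ℝ) (E : Finset (ℝ × (ℝ × ℝ))) (win : ℝ → ℝ × ℝ → ℕ),
    Fr0 Kd D K lam m Q W lo hi R A E win → Kd ≤ K → Kd ^ c ≤ D → K ^ C ≤ lam → 1 ≤ m →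
    ∃ (u1 u2 rho : ℝ) (A' : Finset ℝ) (E' : Finset (ℝ × (ℝ × ℝ))), u1 ∈ A ∧ u2 ∈ A ∧ A' ⊆ A ∧
      E' ⊆ E ∧ Fr (K ^ C) lam m Q W lo hi R u1 u2 rho A' E' win

/-- **[ONERES]** on points (240) -/
def StFrD : Prop :=
  ∃ C : ℕ, ∀ (K lam m : ℝ) (Q : Finset (ℝ × ℝ)) (W : Finset ℕ) (lo hi : ℕ → ℝ)
    (R : ℕ → Finset (ℝ × ℝ)) (u1 u2 rho : ℝ) (A : Finset ℝ) (E : Finset (ℝ × (ℝ × ℝ)))
    (win : ℝ → ℝ × ℝ → ℕ),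
    Fr K lam m Q W lo hi R u1 u2 rho A E win → K ^ C ≤ lam →
    ∃ (A' : Finset ℝ) (E' : Finset (ℝ × (ℝ × ℝ))) (del : ℝ), A' ⊆ A ∧ E' ⊆ E ∧
      FrD (K ^ C) lam m Q W lo hi R u1 u2 rho A' E' win del

/-- **[MACHINE]** -/
def StMachine : Prop :=
  ∃ C : ℕ, ∀ (K lam : ℝ) (Q : Finset Pt) (W : Finset ℕ) (I : ℕ → Set ℝ)
    (R : ℕ → Finset Pt), H183.JView K lam Q W I R → K ^ C ≤ lam → lam ^ 8 ≤ #Q →
    ∃ (o : Pt) (w0 : ℕ) (m0 σ : ℝ) (Q' : Finset (ℝ × ℝ)) (W' : Finset ℕ)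
      (lo hi : ℕ → ℝ) (R' : ℕ → Finset (ℝ × ℝ)) (u1 u2 rho : ℝ) (A : Finset ℝ)
      (E : Finset (ℝ × (ℝ × ℝ))) (win : ℝ → ℝ × ℝ → ℕ) (del : ℝ),
      FrD (K ^ C) lam (#Q / lam ^ 2) Q' W' lo hi R' u1 u2 rho A E win del ∧
      Link Q W I R o w0 m0 σ Q' W' lo hi R' (insert u1 (insert u2 A))

end Vale.Agent.P065.UB.GridU
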